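import Vale.Agent.P272.F.Kit.Pot

/-! P272 F/Kit/Bd (task, owner h70). Helper names start with `kbd_`. Bounds on the balls of radius 4.
Plan. `fderiv ℝ (fderiv ℝ (u j))` is continuous on the compact `closedBall 0 4` (`ContDiffOn.contDiffAt` on the open target, `ContDiffAt.fderiv_right`), finitely many `j` (`choose`, then `Finite.exists_le` or a sum of the constants); `Pos.lo`: minimum of `(y, a) ↦ levi (u j) y a` on `closedBall 0 4 ×ˢ sphere 0 1`, `levi_vec`; `fam_uc`, `fam_uc2`: `IsCompact.uniformContinuousOn_of_continuous`, `abs_levi_sub`. `Pot.le_pos`: `Pot.bound`, `Pos.lo`, `nonneg_of_ch` for `(cmul C ρ).add θ` and `(cmul C ρ).subm 1 θ`. -/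

open Metric Set Filter Topology Complex
open scoped ContDiff

noncomputable section

namespace Vale.Agent.P272

variable {n : ℕ} {X : Type} [TopologicalSpace X] {A : Atl n X}

theorem kbd_cont {u : Fin A.N → E n → ℝ} (h : ∀ j, ContDiffOn ℝ ∞ (u j) (A.e j).target)
    (j : Fin A.N) : ContinuousOn (u j) (closedBall 0 4) ∧
      ContinuousOn (fderiv ℝ (u j)) (closedBall 0 4) ∧
      ContinuousOn (fderiv ℝ (fderiv ℝ (u j))) (closedBall 0 4) := by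
  have h0 : ∀ y ∈ closedBall (0 : E n) 4, ContDiffAt ℝ 2 (u j) y := fun y hy =>
    ((h j).contDiffAt ((A.e j).open_target.mem_nhds (A.tgt j hy))).of_le
      (WithTop.coe_le_coe.mpr (le_top : (2 : ℕ∞) ≤ ⊤))
  have h1 : ∀ y ∈ closedBall (0 : E n) 4, ContDiffAt ℝ 1 (fderiv ℝ (u j)) y := fun y hy =>
    (h0 y hy).fderiv_right (by norm_num)
  have h2 : ∀ y ∈ closedBall (0 : E n) 4, ContDiffAt ℝ 0 (fderiv ℝ (fderiv ℝ (u j))) y :=
    fun y hy => (h1 y hy).fderiv_right (by norm_num)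
  exact ⟨fun y hy => (h0 y hy).continuousAt.continuousWithinAt,
    fun y hy => (h1 y hy).continuousAt.continuousWithinAt,
    fun y hy => (h2 y hy).continuousAt.continuousWithinAt⟩

theorem kbd_bd {N : ℕ} {F : Type} [NormedAddCommGroup F] {f : Fin N → E n → F}
    (h : ∀ j, ContinuousOn (f j) (closedBall 0 4)) : ∃ C, ∀ j y, ‖y‖ ≤ 4 → ‖f j y‖ ≤ C := by
  choose C hC using fun j => (isCompact_closedBall (0 : E n) 4).exists_bound_of_continuousOn (h j)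
  obtain ⟨M, hM⟩ := Finite.exists_le C
  exact ⟨M, fun j y hy => (hC j y (by simpa using hy)).trans (hM j)⟩

theorem kbd_min {N : ℕ} {δ : Fin N → ℝ} (h : ∀ j, 0 < δ j) : ∃ d, 0 < d ∧ ∀ j, d ≤ δ j := by
  have h1 : ∀ᶠ d in 𝓝[>] (0 : ℝ), ∀ j, d ≤ δ j :=
    eventually_all.2 fun j => mem_nhdsWithin_of_mem_nhds (Iic_mem_nhds (h j))
  obtain ⟨d, hd, hd0⟩ := (h1.and self_mem_nhdsWithin).exists
  exact ⟨d, hd0, hd⟩

theorem kbd_uc {N : ℕ} {F : Type} [NormedAddCommGroup F] {f : Fin N → E n → F}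
    (h : ∀ j, ContinuousOn (f j) (closedBall 0 4)) {η : ℝ} (hη : 0 < η) :
    ∃ δ, 0 < δ ∧ ∀ j y y', ‖y‖ ≤ 4 → ‖y'‖ ≤ 4 → ‖y - y'‖ ≤ δ → ‖f j y - f j y'‖ ≤ η := by
  choose δ hδ hd using fun j => Metric.uniformContinuousOn_iff_le.mp
    ((isCompact_closedBall (0 : E n) 4).uniformContinuousOn_of_continuous (h j)) η hη
  obtain ⟨d, hd0, hle⟩ := kbd_min hδ
  refine ⟨d, hd0, fun j y y' hy hy' hyy => ?_⟩
  rw [← dist_eq_norm] at hyy ⊢
  exact hd j y (by simpa using hy) y' (by simpa using hy') (hyy.trans (hle j))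

theorem kbd_levi {u : E n → ℝ} {s : Set (E n)} (h : ContinuousOn (fderiv ℝ (fderiv ℝ u)) s)
    (t : Set (E n)) : ContinuousOn (fun p : E n × E n => levi u p.1 p.2) (s ×ˢ t) := by
  have h1 : ContinuousOn (fun p : E n × E n => fderiv ℝ (fderiv ℝ u) p.1) (s ×ˢ t) :=
    h.comp continuous_fst.continuousOn fun _ hp => hp.1
  have h2 : ContinuousOn (fun p : E n × E n => p.2) (s ×ˢ t) := continuous_snd.continuousOn
  have h3 : ContinuousOn (fun p : E n × E n => I • p.2) (s ×ˢ t) :=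
    (continuous_snd.const_smul I).continuousOn
  exact (((h1.clm_apply h2).clm_apply h2).add ((h1.clm_apply h3).clm_apply h3)).div_const 4

theorem Atl.fam_bound {u : Fin A.N → E n → ℝ} (h : ∀ j, ContDiffOn ℝ ∞ (u j) (A.e j).target) :
    ∃ C : ℝ, 1 ≤ C ∧ ∀ j y, ‖y‖ ≤ 4 → |u j y| ≤ C ∧ ‖fderiv ℝ (u j) y‖ ≤ C ∧
      ‖fderiv ℝ (fderiv ℝ (u j)) y‖ ≤ C ∧ ∀ a, |levi (u j) y a| ≤ C * ‖a‖ ^ 2 := by
  obtain ⟨C₀, h₀⟩ := kbd_bd fun j => (kbd_cont h j).1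
  obtain ⟨C₁, h₁⟩ := kbd_bd fun j => (kbd_cont h j).2.1
  obtain ⟨C₂, h₂⟩ := kbd_bd (F := E n →L[ℝ] E n →L[ℝ] ℝ)
    (f := fun j => fderiv ℝ (fderiv ℝ (u j))) fun j => (kbd_cont h j).2.2
  have e₀ : C₀ ≤ max (max 1 C₀) (max C₁ C₂) := (le_max_right _ _).trans (le_max_left _ _)
  have e₁ : C₁ ≤ max (max 1 C₀) (max C₁ C₂) := (le_max_left _ _).trans (le_max_right _ _)
  have e₂ : C₂ ≤ max (max 1 C₀) (max C₁ C₂) := (le_max_right _ _).trans (le_max_right _ _)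
  refine ⟨max (max 1 C₀) (max C₁ C₂), (le_max_left _ _).trans (le_max_left _ _), fun j y hy =>
    ⟨(h₀ j y hy).trans e₀, (h₁ j y hy).trans e₁, (h₂ j y hy).trans e₂, fun a => ?_⟩⟩
  exact (abs_levi_le _ _ _).trans
    (mul_le_mul_of_nonneg_right ((h₂ j y hy).trans e₂) (sq_nonneg _))

theorem Atl.fam_uc {u : Fin A.N → E n → ℝ} (h : ∀ j, ContDiffOn ℝ ∞ (u j) (A.e j).target)
    {η : ℝ} (hη : 0 < η) : ∃ δ : ℝ, 0 < δ ∧ ∀ j y y', ‖y‖ ≤ 4 → ‖y'‖ ≤ 4 → ‖y - y'‖ ≤ δ →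
      |u j y - u j y'| ≤ η ∧ (∀ a, |levi (u j) y a - levi (u j) y' a| ≤ η * ‖a‖ ^ 2) ∧
        ∀ V, |trL (u j) y V - trL (u j) y' V| ≤ η * hs V := by
  obtain ⟨δ₀, p₀, h₀⟩ := kbd_uc (fun j => (kbd_cont h j).1) hη
  obtain ⟨δ₂, p₂, h₂⟩ := kbd_uc (F := E n →L[ℝ] E n →L[ℝ] ℝ)
    (f := fun j => fderiv ℝ (fderiv ℝ (u j))) (fun j => (kbd_cont h j).2.2) hη
  refine ⟨min δ₀ δ₂, lt_min p₀ p₂, fun j y y' hy hy' hd => ?_⟩
  have h3 : ∀ a, |levi (u j) y a - levi (u j) y' a| ≤ η * ‖a‖ ^ 2 := fun a =>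
    (abs_levi_sub _ _ _ _ _).trans (mul_le_mul_of_nonneg_right
      (h₂ j y y' hy hy' (hd.trans (min_le_right _ _))) (sq_nonneg _))
  refine ⟨h₀ j y y' hy hy' (hd.trans (min_le_left _ _)), h3, fun V => ?_⟩
  rw [trL, trL, hs, ← Finset.sum_sub_distrib, Finset.mul_sum]
  exact (Finset.abs_sum_le_sum_abs _ _).trans (Finset.sum_le_sum fun i _ => h3 _)

theorem Atl.Pot.Pos.lo {ρ : A.Pot} (h : ρ.Pos) :
    ∃ c : ℝ, 0 < c ∧ ∀ j y a, ‖y‖ ≤ 4 → c * ‖a‖ ^ 2 ≤ levi (ρ.u j) y a := by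
  have h1 : ∀ j, ∃ c, 0 < c ∧ ∀ p ∈ closedBall (0 : E n) 4 ×ˢ sphere (0 : E n) 1,
      c ≤ levi (ρ.u j) p.1 p.2 := fun j =>
    ((isCompact_closedBall (0 : E n) 4).prod (isCompact_sphere (0 : E n) 1)).exists_forall_le'
      (kbd_levi (kbd_cont ρ.sm j).2.2 _) fun p hp => h j p.1 (A.tgt j hp.1) p.2 (by
        intro h0
        have h2 := hp.2
        rw [h0] at h2
        simp at h2)
  choose c hc hle using h1
  obtain ⟨d, hd0, hd⟩ := kbd_min hc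
  refine ⟨d, hd0, fun j y a hy => ?_⟩
  rcases eq_or_ne a 0 with rfl | ha
  · simp [levi_zero]
  have hn : 0 < ‖a‖ := norm_pos_iff.mpr ha
  have hc0 : ((‖a‖ : ℝ) : ℂ) ≠ 0 := by exact_mod_cast hn.ne'
  have h2 : ‖((‖a‖ : ℝ) : ℂ)⁻¹ • a‖ = 1 := by
    rw [norm_smul, norm_inv, Complex.norm_real, norm_norm, inv_mul_cancel₀ hn.ne']
  have h3 := (hd j).trans (hle j (y, ((‖a‖ : ℝ) : ℂ)⁻¹ • a) ⟨by simpa using hy, by simpa using h2⟩)
  have h4 := levi_vec (ρ.u j) y ((‖a‖ : ℝ) : ℂ) (((‖a‖ : ℝ) : ℂ)⁻¹ • a)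
  rw [smul_inv_smul₀ hc0, Complex.norm_real, norm_norm] at h4
  rw [h4, mul_comm]
  exact mul_le_mul_of_nonneg_left h3 (sq_nonneg _)

theorem Atl.Pot.le_pos (θ : A.Pot) {ρ : A.Pot} (h : ρ.Pos) : ∃ C : ℝ, 1 ≤ C ∧
    ∀ j x a, x ∈ (A.e j).source → |levi (θ.u j) (A.e j x) a| ≤ C * levi (ρ.u j) (A.e j x) a := by
  obtain ⟨B, hB1, hB⟩ := Atl.fam_bound θ.sm
  obtain ⟨c, hc0, hc⟩ := h.lo
  have key : ∀ s : ℝ, |s| ≤ 1 → ∀ j x a, x ∈ (A.e j).source →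
      0 ≤ max 1 (B / c) * levi (ρ.u j) (A.e j x) a - s * levi (θ.u j) (A.e j x) a := by
    intro s hs
    have e : ∀ j x a, x ∈ (A.e j).source →
        levi (((Atl.Pot.cmul (max 1 (B / c)) ρ).subm s θ).u j) (A.e j x) a =
          max 1 (B / c) * levi (ρ.u j) (A.e j x) a - s * levi (θ.u j) (A.e j x) a := by
      intro j x a hx
      rw [← levi_cmul, ← levi_cmul, ← levi_sub (contDiffAt_const.mul (ρ.at2 hx))
        (contDiffAt_const.mul (θ.at2 hx))]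
      rfl
    intro j x a hx
    rw [← e j x a hx]
    refine Atl.Pot.nonneg_of_ch _ (fun j x a hx => ?_) j x a hx
    rw [e j x a hx.1]
    have hy : ‖A.e j x‖ ≤ 4 := hx.2.trans (by norm_num)
    have h1 := (hB j _ hy).2.2.2 a
    have h2 := hc j _ a hy
    have h3 : s * levi (θ.u j) (A.e j x) a ≤ B * ‖a‖ ^ 2 := by
      refine (le_abs_self _).trans ?_
      rw [abs_mul]
      exact (mul_le_of_le_one_left (abs_nonneg _) hs).trans h1
    have h4 : B / c * (c * ‖a‖ ^ 2) ≤ max 1 (B / c) * levi (ρ.u j) (A.e j x) a :=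
      mul_le_mul (le_max_right _ _) h2 (by positivity) (zero_le_one.trans (le_max_left _ _))
    have h5 : B / c * (c * ‖a‖ ^ 2) = B * ‖a‖ ^ 2 := by field_simp
    linarith
  refine ⟨max 1 (B / c), le_max_left _ _, fun j x a hx => ?_⟩
  have h1 := key 1 (by simp) j x a hx
  have h2 := key (-1) (by simp) j x a hx
  rw [abs_le]
  constructor <;> linarith

end Vale.Agent.P272
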