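import Vale.Agent.P272.F.Kit.Lev
import Vale.Agent.P272.F.P.Ext
import Vale.Agent.P272.BasA

/-! P272 F/Kit/Sm (task, owner h70). Helper names start with `ksm_`. Smooth functions on `X` (see also `pv_at`, `pv_pot_at`, `pv_loc`, `pv_cont` in F/P/Lv and `sm_ext` in F/P/Ext).
Plan. Closure properties: `ContDiffOn.add` etc. (`loc` unfolds by `rfl`). `exists_cut`: `b : ContDiffBump (0 : E n) := ⟨r, (r + R) / 2, _, _⟩`, `χ = A.ext j b`, `sm_ext` with `K = closedBall 0 ((r + R) / 2)`; it vanishes on the complement of the closed set `In j ((r + R) / 2)` (`Atl.isClosed_in`). `Sm.cut_mul`: the function is `A.ext j (fun y => loc χ j y * g y)` (`sm_ext`, `K = closedBall 0 R`; at points of the target with norm `> R` the product vanishes nearby).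
`loc_chg`: `left_inv`, the source is open. `levi_chg`: `pv_levi_congr`, `levi_comp`, `Atl.tr_analytic` (`AnalyticAt.eventually_analyticAt`). `tr_cocycle`: chain rule as in `tr_mul`. -/

open Metric Set Filter Topology Complex
open scoped ContDiff

noncomputable section

namespace Vale.Agent.P272

variable {n : ℕ} {X : Type} [TopologicalSpace X] {A : Atl n X}

theorem Atl.sm_const (c : ℝ) : A.Sm fun _ => c := by
  exact fun _ => contDiffOn_const

theorem Atl.Sm.add {φ ψ : X → ℝ} (h : A.Sm φ) (h' : A.Sm ψ) : A.Sm fun x => φ x + ψ x := by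
  exact fun j => (h j).add (h' j)

theorem Atl.Sm.sub {φ ψ : X → ℝ} (h : A.Sm φ) (h' : A.Sm ψ) : A.Sm fun x => φ x - ψ x := by
  exact fun j => (h j).sub (h' j)

theorem Atl.Sm.mul {φ ψ : X → ℝ} (h : A.Sm φ) (h' : A.Sm ψ) : A.Sm fun x => φ x * ψ x := by
  exact fun j => (h j).mul (h' j)

theorem Atl.Sm.comp {φ : X → ℝ} (h : A.Sm φ) {g : ℝ → ℝ} (hg : ∀ x, ContDiffAt ℝ ∞ g (φ x)) :
    A.Sm fun x => g (φ x) := by
  exact fun j y hy => (hg ((A.e j).symm y)).comp_contDiffWithinAt y (h j y hy)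

theorem Atl.sm_sum {ι : Type} (s : Finset ι) {φ : ι → X → ℝ} (h : ∀ i ∈ s, A.Sm (φ i)) :
    A.Sm fun x => ∑ i ∈ s, φ i x := by
  exact fun j => ContDiffOn.sum (f := fun i => A.loc (φ i) j) fun i hi => h i hi j

theorem Atl.Sm.at2 {φ : X → ℝ} (h : A.Sm φ) {j : Fin A.N} {x : X} (hx : x ∈ (A.e j).source) :
    ContDiffAt ℝ 2 (A.loc φ j) (A.e j x) := by
  exact (pv_at h hx).of_le (by norm_cast)

theorem Atl.Pot.at2 (θ : A.Pot) {j : Fin A.N} {x : X} (hx : x ∈ (A.e j).source) :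
    ContDiffAt ℝ 2 (θ.u j) (A.e j x) := by
  exact (pv_pot_at θ hx).of_le (by norm_cast)

theorem exists_cut [T2Space X] (A : Atl n X) (j : Fin A.N) {r R : ℝ} (h0 : 0 < r) (h1 : r < R)
    (h2 : R ≤ 4) : ∃ χ : X → ℝ, A.Sm χ ∧ (∀ x, 0 ≤ χ x ∧ χ x ≤ 1) ∧ (∀ x, A.In j r x → χ x = 1) ∧
      ∀ x, ¬ A.In j R x → χ =ᶠ[𝓝 x] 0 := by
  let b : ContDiffBump (0 : E n) := ⟨r, (r + R) / 2, h0, by linarith⟩
  have h4 : (r + R) / 2 ≤ 4 := by linarith
  have hz : ∀ y : E n, ¬ ‖y‖ ≤ (r + R) / 2 → b y = 0 := fun y hy =>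
    b.zero_of_le_dist (by rw [dist_zero_right]; exact (not_le.1 hy).le)
  refine ⟨A.ext j b, fun k => sm_ext (isCompact_closedBall 0 ((r + R) / 2))
    ((closedBall_subset_closedBall h4).trans (A.tgt j)) b.contDiff.contDiffOn
    (fun y _ hy => hz y fun h => hy (mem_closedBall_zero_iff.2 h)) k, fun x => ?_, fun x hx => ?_,
    fun x hx => ?_⟩
  · by_cases hx : x ∈ (A.e j).source
    · rw [ext_of_mem _ hx]
      exact ⟨b.nonneg, b.le_one⟩
    · rw [ext_of_notMem _ hx]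
      exact ⟨le_rfl, zero_le_one⟩
  · rw [ext_of_mem _ hx.1]
    exact b.one_of_mem_closedBall (mem_closedBall_zero_iff.2 hx.2)
  · have hn : x ∈ {x | A.In j ((r + R) / 2) x}ᶜ := fun h => hx (Atl.In.mono h (by linarith))
    filter_upwards [(Atl.isClosed_in j h4).isOpen_compl.mem_nhds hn] with z hz'
    by_cases hs : z ∈ (A.e j).source
    · rw [ext_of_mem _ hs]
      exact hz _ fun h => hz' ⟨hs, h⟩
    · exact ext_of_notMem _ hs

theorem Atl.Sm.cut_mul [T2Space X] {χ : X → ℝ} (h : A.Sm χ) {j : Fin A.N} {R : ℝ} (hR : R ≤ 4)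
    (h0 : ∀ x, ¬ A.In j R x → χ x = 0) {g : E n → ℝ}
    (hg : ∀ y, ‖y‖ ≤ R → ContDiffAt ℝ ∞ g y) : A.Sm fun x => χ x * g (A.e j x) := by
  have hz : ∀ y ∈ (A.e j).target, ¬ ‖y‖ ≤ R → A.loc χ j y * g y = 0 := fun y hy hR' => by
    have : A.loc χ j y = 0 := h0 _ fun hi => hR' (by
      have := hi.2
      rwa [(A.e j).right_inv hy] at this)
    rw [this, zero_mul]
  have e : (fun x => χ x * g (A.e j x)) = A.ext j fun y => A.loc χ j y * g y := by
    funext x
    by_cases hx : x ∈ (A.e j).source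
    · rw [ext_of_mem _ hx, pv_loc χ hx]
    · rw [ext_of_notMem _ hx, h0 x fun hi => hx hi.1, zero_mul]
  rw [e]
  refine fun k => sm_ext (isCompact_closedBall 0 R)
    ((closedBall_subset_closedBall hR).trans (A.tgt j)) (fun y hy => ?_)
    (fun y hy hK => hz y hy fun h => hK (mem_closedBall_zero_iff.2 h)) k
  by_cases hy' : ‖y‖ ≤ R
  · exact (h j y hy).mul (hg y hy').contDiffWithinAt
  · have h1 : ∀ᶠ z in 𝓝 y, R < ‖z‖ :=
      continuous_norm.continuousAt.eventually (lt_mem_nhds (not_le.1 hy'))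
    refine (contDiffAt_const (c := (0 : ℝ))).contDiffWithinAt.congr_of_eventuallyEq ?_ (hz y hy hy')
    filter_upwards [nhdsWithin_le_nhds h1, self_mem_nhdsWithin] with z h2 h3
    exact hz z h3 (not_le.2 h2)

theorem Atl.loc_chg (φ : X → ℝ) {j k : Fin A.N} {x : X} (hj : x ∈ (A.e j).source)
    (hk : x ∈ (A.e k).source) :
    A.loc φ k =ᶠ[𝓝 (A.e k x)] A.loc φ j ∘ (A.e j ∘ (A.e k).symm) := by
  have ht : A.e k x ∈ (A.e k).target := (A.e k).map_source hk
  have hc : ContinuousAt (A.e k).symm (A.e k x) := (A.e k).symm.continuousAt ht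
  have h1 : ∀ᶠ y in 𝓝 (A.e k x), (A.e k).symm y ∈ (A.e j).source :=
    hc.preimage_mem_nhds ((A.e j).open_source.mem_nhds (by rwa [(A.e k).left_inv hk]))
  filter_upwards [h1] with y hy
  exact (pv_loc φ hy).symm

theorem Atl.Sm.levi_chg {φ : X → ℝ} (h : A.Sm φ) {j k : Fin A.N} {x : X}
    (hj : x ∈ (A.e j).source) (hk : x ∈ (A.e k).source) (a : E n) :
    levi (A.loc φ k) (A.e k x) a = levi (A.loc φ j) (A.e j x) (A.tr j k x a) := by
  have hx : (A.e j ∘ (A.e k).symm) (A.e k x) = A.e j x := congrArg (A.e j) ((A.e k).left_inv hk)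
  rw [pv_levi_congr (Atl.loc_chg φ hj hk), pv_levi_comp (Atl.tr_analytic hj hk)
    (by rw [hx]; exact h.at2 hj), hx]
  rfl

theorem Atl.tr_cocycle {i j k : Fin A.N} {x : X} (hi : x ∈ (A.e i).source)
    (hj : x ∈ (A.e j).source) (hk : x ∈ (A.e k).source) :
    A.tr i j x * A.tr j k x = A.tr i k x := by
  have ht : A.e k x ∈ (A.e k).target := (A.e k).map_source hk
  have hx : (A.e k).symm (A.e k x) = x := (A.e k).left_inv hk
  have h1 : A.HolAt (fun q => (A.e k).symm (id q)) (A.e k x) :=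
    Atl.holAt_symm ht differentiableAt_id
  have h2 := basa1_chg (j := i) (k := j) h1 (by simpa only [id, hx] using hi)
    (by simpa only [id, hx] using hj)
  simp only [id, hx] at h2
  exact h2.symm

theorem Atl.Sm.isLocalMin {φ : X → ℝ} {j : Fin A.N} {x : X} (hj : x ∈ (A.e j).source)
    (h : ∀ x', φ x ≤ φ x') : IsLocalMin (A.loc φ j) (A.e j x) := by
  refine Eventually.of_forall fun y => ?_
  rw [pv_loc φ hj]
  exact h _

end Vale.Agent.P272
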