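import Vale.Agent.P272.F.Kit.Rhs

/-! P272 F/Kit: all the tools (files Lev, Her, Sm, Ma, Pot, Bd, Rhs, and F/P/Lv, LComp, Ext). -/
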