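import Vale.Agent.P272.F.Kit.Lev
import Vale.Agent.P272.F.S.Lin

/-! P272 F/Kit/Her (task, owner h70). Helper names start with `kher_`. The Levi form is a Hermitian form; pluriharmonic functions.
Plan. `levi_qf`: `B = D² u y` is symmetric (`ContDiffAt.isSymmSndFDerivAt`). `h a b = (B a b + B (I a) (I b)) / 4 + I * (B (I a) b - B a (I b)) / 4` up to the sign of the second term is sesquilinear; define `Γ` by its matrix `h (eb i) (eb j)` (`Matrix.toEuclideanCLM`, or `∑ i j, h (eb i) (eb j) • (innerSL ℂ (eb j)).smulRight (eb i)`), or use `InnerProductSpace.continuousLinearMapOfBilin` with `LinearMap.mk₂'ₛₗ`.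
`levi_re`: for `f` analytic, `D (re ∘ f) z = re ∘ (D f z)` near `y`, the second derivative is `re (f'' a a)` with `f''` complex bilinear, so the two terms cancel (or use `levi_comp`-like computation: `T z = f z • b`). `levi_log`: near `y`, `log (‖f z‖ ^ 2) = 2 * re (log (f z / f y)) + log (‖f y‖ ^ 2)` (`Complex.log_re`, `AnalyticAt.clog`, `slitPlane`). -/

open Metric Set Filter Topology Complex
open scoped ContDiff

noncomputable section

namespace Vale.Agent.P272

variable {n : ℕ} {X : Type} [TopologicalSpace X] {A : Atl n X}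

theorem kher_key {f : E n → ℂ} {y : E n} (hf : AnalyticAt ℂ f y) (a : E n) :
    fderiv ℝ (fderiv ℝ fun z => (f z).re) y a a = (fderiv ℂ (fderiv ℂ f) y a a).re := by
  have e : (fderiv ℝ fun z => (f z).re) =ᶠ[𝓝 y] fun z =>
      Complex.reCLM.comp ((fderiv ℂ f z).restrictScalars ℝ) := by
    filter_upwards [hf.eventually_analyticAt] with z h1
    exact (Complex.reCLM.hasFDerivAt.comp z
      (h1.differentiableAt.hasFDerivAt.restrictScalars ℝ)).fderiv
  have h2 := (ContinuousLinearMap.restrictScalarsL ℂ (E n) ℂ ℝ ℝ).hasFDerivAt.comp y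
    (hf.fderiv.differentiableAt.hasFDerivAt.restrictScalars ℝ)
  have h3 := (ContinuousLinearMap.compL ℝ (E n) ℂ ℝ Complex.reCLM).hasFDerivAt.comp y h2
  rw [e.fderiv_eq]
  exact congrArg (fun D : E n →L[ℝ] E n →L[ℝ] ℝ => D a a) h3.fderiv

theorem levi_qf {u : E n → ℝ} {y : E n} (hu : ContDiffAt ℝ 2 u y) :
    ∃ Γ : L n, IsSelfAdjoint Γ ∧ ∀ a, levi u y a = qf Γ a :=
  slin_op hu

theorem levi_re {f : E n → ℂ} {y : E n} (hf : AnalyticAt ℂ f y) (a : E n) :
    levi (fun z => (f z).re) y a = 0 := by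
  rw [levi, kher_key hf, kher_key hf, (fderiv ℂ (fderiv ℂ f) y).map_smul,
    (I • fderiv ℂ (fderiv ℂ f) y a).map_smul, smul_apply, smul_smul, I_mul_I, neg_one_smul,
    Complex.neg_re]
  ring

theorem levi_log {f : E n → ℂ} {y : E n} (hf : AnalyticAt ℂ f y) (h0 : f y ≠ 0) (a : E n) :
    levi (fun z => Real.log (‖f z‖ ^ 2)) y a = 0 := by
  have hg : AnalyticAt ℂ (fun z => f z / f y) y := hf.div_const
  have hs : f y / f y ∈ slitPlane := by
    rw [div_self h0]
    exact one_mem_slitPlane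
  have hl : AnalyticAt ℂ (fun z => Complex.log (f z / f y)) y := hg.clog hs
  have e : (fun z => Real.log (‖f z‖ ^ 2)) =ᶠ[𝓝 y]
      fun z => 2 * (Complex.log (f z / f y)).re + Real.log (‖f y‖ ^ 2) := by
    filter_upwards [hf.continuousAt.eventually_ne h0] with z hz
    rw [Complex.log_re, norm_div, Real.log_div (norm_ne_zero_iff.2 hz) (norm_ne_zero_iff.2 h0),
      Real.log_pow, Real.log_pow]
    push_cast
    ring
  rw [pv_levi_congr e, levi_add_const, levi_cmul, levi_re hl, mul_zero]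

theorem log_smooth {f : E n → ℂ} {y : E n} (hf : AnalyticAt ℂ f y) (h0 : f y ≠ 0) :
    ContDiffAt ℝ ∞ (fun z => Real.log (‖f z‖ ^ 2)) y := by
  have h1 : ContDiffAt ℝ ∞ f y := (hf.contDiffAt (n := ∞)).restrict_scalars ℝ
  exact (h1.norm_sq ℂ).log (pow_ne_zero 2 (norm_ne_zero_iff.2 h0))

end Vale.Agent.P272
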