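import Vale.Agent.P272.F.P.Lv
import Vale.Agent.P272.F.P.LComp
import Vale.Agent.P272.Lin
import Vale.Agent.P272.F.R.Lev

/-! P272 F/Kit/Lev (task, owner h70). Helper names start with `klev_`. Algebra of the Levi form (see also the `pv_` lemmas of F/P/Lv: congr, add, sq, cont, rank).
Plan. `levi_comp`: `P278.osgood_at` and `pv_levi_comp`. `levi_cmul`: `fderiv_const_smul_field` (no hypothesis) twice, or split `c = 0`. `levi_vec`: `c • a = c.re • a + c.im • (I • a)`, `I • c • a = c.re • (I • a) - c.im • a`, expand by bilinearity, `Complex.sq_norm`, `normSq_apply`.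
`levi_min`: for `b` the function `t ↦ u (y + t • b)` has a local minimum at `0`; if `D² u b b < 0` its derivative vanishes at `0` (`IsLocalMin.fderiv_eq_zero`) and has negative derivative (`isLocalMax_of_deriv_deriv_neg`-type lemmas, or `IsLocalMin` with the mean value theorem; a strict version follows by subtracting: apply `isLocalMax_of_deriv_deriv_neg` to `g t + c t ^ 2` and compare). `abs_levi_le`: `le_opNorm₂`, `‖I • a‖ = ‖a‖`. -/

open Metric Set Filter Topology Complex
open scoped ContDiff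

noncomputable section

namespace Vale.Agent.P272

variable {n : ℕ} {X : Type} [TopologicalSpace X] {A : Atl n X}

theorem levi_comp {u : E n → ℝ} {T : E n → E n} {y : E n} (hT : ∀ᶠ z in 𝓝 y, DifferentiableAt ℂ T z)
    (hu : ContDiffAt ℝ 2 u (T y)) (a : E n) : levi (u ∘ T) y a = levi u (T y) (fderiv ℂ T y a) := by
  exact pv_levi_comp (P278.osgood_at hT) hu a

theorem levi_const (c : ℝ) (y a : E n) : levi (fun _ => c) y a = 0 := by
  exact R.rl_const c a

theorem klev_two {V : Type} [NormedAddCommGroup V] [NormedSpace ℝ V] (c : ℝ) (u : V → ℝ)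
    (y a : V) : fderiv ℝ (fderiv ℝ fun z => c * u z) y a a = c * fderiv ℝ (fderiv ℝ u) y a a := by
  have e : (fun z => c * u z) = c • u := rfl
  have h := fderiv_const_smul_field (𝕜 := ℝ) (F := V →L[ℝ] ℝ) (f := fderiv ℝ u) c
  rw [e, fderiv_const_smul_field c]
  exact congrArg (fun D : V → V →L[ℝ] V →L[ℝ] ℝ => D y a a) h

theorem levi_cmul (c : ℝ) (u : E n → ℝ) (y a : E n) :
    levi (fun z => c * u z) y a = c * levi u y a := by
  have h := klev_two c u y
  unfold levi
  rw [h, h]
  ring

theorem levi_add_const (u : E n → ℝ) (c : ℝ) (y a : E n) :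
    levi (fun z => u z + c) y a = levi u y a := by
  have e : fderiv ℝ (fun z => u z + c) = fderiv ℝ u := funext fun z => fderiv_add_const c
  unfold levi
  rw [e]

theorem levi_sub {u v : E n → ℝ} {y : E n} (hu : ContDiffAt ℝ 2 u y) (hv : ContDiffAt ℝ 2 v y)
    (a : E n) : levi (fun z => u z - v z) y a = levi u y a - levi v y a := by
  exact R.rl_sub hu hv a

theorem levi_vec (u : E n → ℝ) (y : E n) (c : ℂ) (a : E n) :
    levi u y (c • a) = ‖c‖ ^ 2 * levi u y a := by
  have h0 : ∀ (s : ℝ) (b : E n), s • b = (s : ℂ) • b := fun s b => (Complex.coe_smul s b).symm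
  have h1 : c • a = c.re • a + c.im • (I • a) := by
    rw [h0, h0, smul_smul, ← add_smul, re_add_im]
  have h2 : I • c • a = c.re • (I • a) - c.im • a := by
    rw [h0, h0, smul_smul, smul_smul, ← sub_smul]
    refine congrArg (· • a) ?_
    apply Complex.ext <;> simp
  unfold levi
  rw [h2, h1, Complex.sq_norm, normSq_apply]
  simp only [map_add, map_sub, map_smul, add_apply, sub_apply, smul_apply, smul_eq_mul]
  ring

theorem levi_zero (u : E n → ℝ) (y : E n) : levi u y 0 = 0 := by
  exact R.rl_zero u y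

theorem abs_levi_le (u : E n → ℝ) (y a : E n) :
    |levi u y a| ≤ ‖fderiv ℝ (fderiv ℝ u) y‖ * ‖a‖ ^ 2 := by
  exact R.rl_le u y a

theorem abs_levi_sub (u v : E n → ℝ) (y y' a : E n) : |levi u y a - levi v y' a| ≤
    ‖fderiv ℝ (fderiv ℝ u) y - fderiv ℝ (fderiv ℝ v) y'‖ * ‖a‖ ^ 2 := by
  refine le_of_eq_of_le ?_ (R.rlev_bd _ a)
  simp only [levi, sub_apply]
  exact congrArg abs (by ring)

theorem levi_min {u : E n → ℝ} {y : E n} (hu : ContDiffAt ℝ 2 u y) (h : IsLocalMin u y) (a : E n) :
    0 ≤ levi u y a := by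
  exact R.rl_min hu h a

theorem levi_max {u : E n → ℝ} {y : E n} (hu : ContDiffAt ℝ 2 u y) (h : IsLocalMax u y) (a : E n) :
    levi u y a ≤ 0 := by
  have h1 : IsLocalMin (fun z => -1 * u z) y := by
    filter_upwards [h] with z hz
    linarith
  have h2 := levi_min (contDiffAt_const.mul hu) h1 a
  rw [levi_cmul] at h2
  linarith

theorem trL_cmul (c : ℝ) (u : E n → ℝ) (y : E n) (V : L n) :
    trL (fun z => c * u z) y V = c * trL u y V := by
  simp only [trL, levi_cmul, Finset.mul_sum]

theorem trL_add_const (u : E n → ℝ) (c : ℝ) (y : E n) (V : L n) :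
    trL (fun z => u z + c) y V = trL u y V := by
  simp only [trL, levi_add_const]

theorem trL_sub {u v : E n → ℝ} {y : E n} (hu : ContDiffAt ℝ 2 u y) (hv : ContDiffAt ℝ 2 v y)
    (V : L n) : trL (fun z => u z - v z) y V = trL u y V - trL v y V := by
  simp only [trL, levi_sub hu hv, Finset.sum_sub_distrib]

theorem trL_le {u v : E n → ℝ} {y y' : E n} {c : ℝ} (h : ∀ a, c * levi u y a ≤ levi v y' a)
    (V : L n) : c * trL u y V ≤ trL v y' V := by
  rw [trL, trL, Finset.mul_sum]
  exact Finset.sum_le_sum fun i _ => h _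

theorem trL_lo {u : E n → ℝ} {y : E n} {c : ℝ} (h : ∀ a, c * ‖a‖ ^ 2 ≤ levi u y a) (V : L n) :
    c * hs V ≤ trL u y V := by
  rw [trL, hs, Finset.mul_sum]
  exact Finset.sum_le_sum fun i _ => h _

theorem trL_up {u : E n → ℝ} {y : E n} {c : ℝ} (h : ∀ a, levi u y a ≤ c * ‖a‖ ^ 2) (V : L n) :
    trL u y V ≤ c * hs V := by
  rw [trL, hs, Finset.mul_sum]
  exact Finset.sum_le_sum fun i _ => h _

theorem hs_one : hs (1 : L n) = n := by
  simp [hs, lin_eb]

end Vale.Agent.P272
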