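import Vale.Agent.P272.F.Kit.Lev

/-! P272 F/Kit/Ma (task, owner h70). Helper names start with `kma_`. The Monge-Ampere side.
Plan. `det_le_hs` (Hadamard and AM-GM): `star V * V` is positive; with `M` the matrix of `V` (`lin_det`), `Mᴴ * M` is positive semidefinite, `det = ∏ eigenvalues`, `trace = ∑ eigenvalues = hs V` (`Matrix.IsHermitian.det_eq_prod_eigenvalues`, `trace_eq_sum_eigenvalues`, `Real.inner_le_nnorm_mul_nnorm` is not needed), AM-GM `Real.geom_mean_le_arith_mean_weighted` or `inner_le_nnorm_mul_nnorm`. `maR_eq`: `Real.mul_rpow`, `Real.exp_mul`/`Real.rpow_def_of_pos`. `maR_chg`: `det_mul'`, `det_ne`, `Real.exp_log`. -/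

open Metric Set Filter Topology Complex
open scoped ContDiff

noncomputable section

namespace Vale.Agent.P272

variable {n : ℕ} {X : Type} [TopologicalSpace X] {A : Atl n X}

theorem det_le_hs (hn : 1 ≤ n) (V : L n) : ‖V.det‖ ^ 2 ≤ (hs V / n) ^ n := by
  let M : Matrix (Fin n) (Fin n) ℂ := Matrix.of fun i j => V (eb j) i
  have hM := Matrix.isHermitian_conjTranspose_mul_self M
  have h0 := Matrix.eigenvalues_conjTranspose_mul_self_nonneg M
  have h1 := hM.det_eq_prod_eigenvalues
  have h2 := hM.trace_eq_sum_eigenvalues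
  generalize hM.eigenvalues = w at h0 h1 h2
  have e1 : ‖V.det‖ ^ 2 = ∏ i, w i := by
    rw [Matrix.det_mul, Matrix.det_conjTranspose, ← lin_det, Complex.star_def,
      Complex.conj_mul'] at h1
    refine Complex.ofReal_injective ?_
    rw [Complex.ofReal_pow, Complex.ofReal_prod]
    exact h1
  have e2 : hs V = ∑ i, w i := by
    have h3 : (M.conjTranspose * M).trace = ((hs V : ℝ) : ℂ) := by
      simp only [Matrix.trace, Matrix.diag, Matrix.mul_apply, Matrix.conjTranspose_apply, M,
        Matrix.of_apply, hs, EuclideanSpace.norm_sq_eq, Complex.star_def, Complex.conj_mul']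
      push_cast
      rfl
    refine Complex.ofReal_injective ?_
    rw [← h3, Complex.ofReal_sum]
    exact h2
  have n0 : (0 : ℝ) < n := by exact_mod_cast hn
  have h4 := Real.geom_mean_le_arith_mean_weighted Finset.univ (fun _ : Fin n => (1 / n : ℝ))
    w (fun _ _ => by positivity) (by simp [n0.ne']) fun i _ => h0 i
  rw [Real.finsetProd_rpow _ _ fun i _ => h0 i, ← Finset.mul_sum, ← e1, ← e2] at h4
  have h5 := pow_le_pow_left₀ (by positivity) h4 n
  rwa [one_div, Real.rpow_inv_natCast_pow (by positivity) (by omega), inv_mul_eq_div] at h5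

theorem maR_nonneg (l : ℝ) (V : L n) : 0 ≤ maR l V := by
  unfold maR
  positivity

theorem maR_add (c l : ℝ) (V : L n) : maR (c + l) V = Real.exp (c / n) * maR l V := by
  rw [maR, maR, Real.exp_add, mul_assoc (Real.exp c), Real.mul_rpow (Real.exp_pos c).le
    (by positivity), ← Real.exp_mul, mul_one_div, mul_left_comm]

theorem maR_mono {l l' : ℝ} (h : l ≤ l') (V : L n) : maR l V ≤ maR l' V := by
  unfold maR
  gcongr

theorem maR_le (hn : 1 ≤ n) (l : ℝ) (V : L n) : maR l V ≤ Real.exp (l / n) * hs V := by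
  have n0 : (0 : ℝ) < n := by exact_mod_cast hn
  have h0 : 0 ≤ hs V / n := div_nonneg (Finset.sum_nonneg fun _ _ => sq_nonneg _) n0.le
  have h1 := Real.rpow_le_rpow (by positivity) (det_le_hs hn V) (z := 1 / n) (by positivity)
  rw [one_div, Real.pow_rpow_inv_natCast h0 (by omega), le_div_iff₀' n0] at h1
  rw [← add_zero l, maR_add, maR, Real.exp_zero, one_mul, add_zero, one_div]
  exact mul_le_mul_of_nonneg_left h1 (Real.exp_pos _).le

theorem maR_one (l : ℝ) : maR l (1 : L n) = n * Real.exp (l / n) := by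
  have h : (1 : L n).det = 1 := LinearMap.det_id
  rw [maR, h, norm_one, one_pow, mul_one, ← Real.exp_mul, mul_one_div]

theorem maR_chg (l : ℝ) {T : L n} (hT : IsUnit T) (V : L n) :
    maR (l + Real.log (‖T.det‖ ^ 2)) V = maR l (T * V) := by
  rw [maR, maR, det_mul', norm_mul, mul_pow, Real.exp_add,
    Real.exp_log (pow_pos (norm_pos_iff.2 (det_ne hT)) 2), mul_assoc]

end Vale.Agent.P272
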