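import Vale.Agent.P272.F.Kit.Sm
import Vale.Agent.P272.F.Kit.Her
import Vale.Agent.P272.F.Kit.Ma

/-! P272 F/Kit/Pot (task, owner h70). Helper names start with `kpot_`. Operations on potentials, bounds on the balls of radius 4, reduction to one chart.
Plan. `toPot`: near `e k x`, `l k = l j ∘ T + log (‖det (fderiv ℂ T ·)‖ ^ 2)` with `T = e j ∘ (e k).symm` (`cmp` at the point `(e k).symm y`), `levi_log` with `analyticAt_det`, `AnalyticAt.fderiv`, `tr_unit`, `det_ne`; `levi_comp`.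
Bounds: `fderiv ℝ (fderiv ℝ (u j))` is continuous on the compact `closedBall 0 4` (`ContDiffOn.contDiffAt` on the open target, `ContDiffAt.fderiv_right`), finitely many `j` (`Finite.exists_le`, or a compact set in `Fin N × E n`); `Pos.lo`: minimum of `(y, a) ↦ levi (u j) y a` on `closedBall 0 4 ×ˢ sphere 0 1`, `levi_vec`; `uc`: `IsCompact.uniformContinuousOn_of_continuous`, `abs_levi_sub`. Reduction: `k = A.ch x`, `Atl.ch_in`, `cmp`, `tr_mul`. -/

open Metric Set Filter Topology Complex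
open scoped ContDiff

noncomputable section

namespace Vale.Agent.P272

variable {n : ℕ} {X : Type} [TopologicalSpace X] {A : Atl n X}

theorem kpot_lv (v : A.LV) {j k : Fin A.N} {x : X} (hj : x ∈ (A.e j).source)
    (hk : x ∈ (A.e k).source) (a : E n) :
    levi (v.l k) (A.e k x) a = levi (v.l j) (A.e j x) (A.tr j k x a) := by
  have hT := Atl.tr_analytic hj hk
  have e0 : (A.e j ∘ (A.e k).symm) (A.e k x) = A.e j x :=
    congrArg (A.e j) ((A.e k).left_inv hk)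
  have h1 : ∀ᶠ y in 𝓝 (A.e k x), y ∈ (A.e k).target :=
    (A.e k).open_target.mem_nhds ((A.e k).map_source hk)
  have h2 : ∀ᶠ y in 𝓝 (A.e k x), (A.e k).symm y ∈ (A.e j).source := by
    refine ((A.e k).continuousAt_symm ((A.e k).map_source hk)).preimage_mem_nhds ?_
    rw [(A.e k).left_inv hk]
    exact (A.e j).open_source.mem_nhds hj
  have h3 : v.l k =ᶠ[𝓝 (A.e k x)] fun y => (v.l j ∘ (A.e j ∘ (A.e k).symm)) y +
      Real.log (‖(fderiv ℂ (A.e j ∘ (A.e k).symm) y).det‖ ^ 2) := by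
    filter_upwards [h1, h2] with y a1 a2
    have h4 := v.cmp j k _ a2 ((A.e k).map_target a1)
    rw [Atl.tr, (A.e k).right_inv a1] at h4
    exact h4
  have h4 : ContDiffAt ℝ 2 (v.l j) ((A.e j ∘ (A.e k).symm) (A.e k x)) := by
    rw [e0]
    exact ((v.sm j).contDiffAt ((A.e j).open_target.mem_nhds ((A.e j).map_source hj))).of_le
      ENat.LEInfty.out
  have h5 : AnalyticAt ℂ (fun y => (fderiv ℂ (A.e j ∘ (A.e k).symm) y).det) (A.e k x) :=
    AnalyticAt.comp (g := fun S : L n => S.det) (analyticAt_det _) hT.fderiv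
  have h6 : (fderiv ℂ (A.e j ∘ (A.e k).symm) (A.e k x)).det ≠ 0 := det_ne (Atl.tr_unit hj hk)
  rw [pv_levi_congr h3, pv_levi_add (h4.comp _ (hT.contDiffAt.restrict_scalars ℝ))
    ((log_smooth h5 h6).of_le ENat.LEInfty.out), levi_log h5 h6, add_zero,
    levi_comp (hT.eventually_analyticAt.mono fun z hz => hz.differentiableAt) h4, e0]
  rfl

/-- Sum of potentials. -/
def Atl.Pot.add (θ τ : A.Pot) : A.Pot where
  u j y := θ.u j y + τ.u j y
  sm j := (θ.sm j).add (τ.sm j)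
  cmp j k x hj hk a := by
    rw [pv_levi_add (θ.at2 hk) (τ.at2 hk), pv_levi_add (θ.at2 hj) (τ.at2 hj), θ.cmp j k x hj hk,
      τ.cmp j k x hj hk]

/-- Multiple of a potential. -/
def Atl.Pot.cmul (c : ℝ) (θ : A.Pot) : A.Pot where
  u j y := c * θ.u j y
  sm j := contDiffOn_const.mul (θ.sm j)
  cmp j k x hj hk a := by rw [levi_cmul, levi_cmul, θ.cmp j k x hj hk]

/-- `θ - c ρ`. -/
def Atl.Pot.subm (θ : A.Pot) (c : ℝ) (ρ : A.Pot) : A.Pot where
  u j y := θ.u j y - c * ρ.u j y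
  sm j := (θ.sm j).sub (contDiffOn_const.mul (ρ.sm j))
  cmp j k x hj hk a := by
    rw [levi_sub (θ.at2 hk) (contDiffAt_const.mul (ρ.at2 hk)),
      levi_sub (θ.at2 hj) (contDiffAt_const.mul (ρ.at2 hj)), levi_cmul, levi_cmul,
      θ.cmp j k x hj hk, ρ.cmp j k x hj hk]

/-- A potential plus a smooth function. -/
def Atl.Pot.addSm (θ : A.Pot) {φ : X → ℝ} (h : A.Sm φ) : A.Pot where
  u j y := θ.u j y + A.loc φ j y
  sm j := (θ.sm j).add (h j)
  cmp j k x hj hk a := by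
    rw [pv_levi_add (θ.at2 hk) (h.at2 hk), pv_levi_add (θ.at2 hj) (h.at2 hj), θ.cmp j k x hj hk,
      h.levi_chg hj hk]

/-- The curvature form of a volume form. -/
def Atl.LV.toPot (v : A.LV) : A.Pot where
  u := v.l
  sm := v.sm
  cmp _ _ _ hj hk a := kpot_lv v hj hk a

/-- A volume form times a positive function. -/
def Atl.LV.addSm (v : A.LV) {φ : X → ℝ} (h : A.Sm φ) : A.LV where
  l j y := v.l j y + A.loc φ j y
  sm j := (v.sm j).add (h j)
  cmp j k x hj hk := by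
    rw [pv_loc φ hj, pv_loc φ hk, v.cmp j k x hj hk]
    ring

theorem Atl.Pot.trL_chg (θ : A.Pot) {j k : Fin A.N} {x : X} (hj : x ∈ (A.e j).source)
    (hk : x ∈ (A.e k).source) (V : L n) :
    trL (θ.u k) (A.e k x) V = trL (θ.u j) (A.e j x) (A.tr j k x * V) := by
  simp only [trL, θ.cmp j k x hj hk]
  rfl

theorem Atl.Pot.Pos.nonneg {ρ : A.Pot} (h : ρ.Pos) {j : Fin A.N} {y : E n}
    (hy : y ∈ (A.e j).target) (a : E n) : 0 ≤ levi (ρ.u j) y a := by
  by_cases ha : a = 0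
  · rw [ha, levi_zero]
  · exact (h j y hy a ha).le

theorem Atl.Pot.Pos.trL_nonneg {ρ : A.Pot} (h : ρ.Pos) {j : Fin A.N} {y : E n}
    (hy : y ∈ (A.e j).target) (V : L n) : 0 ≤ trL (ρ.u j) y V := by
  exact Finset.sum_nonneg fun i _ => h.nonneg hy _

theorem Atl.Pot.nonneg_of_ch (θ : A.Pot)
    (h : ∀ j x a, A.In j 1 x → 0 ≤ levi (θ.u j) (A.e j x) a) :
    ∀ j x a, x ∈ (A.e j).source → 0 ≤ levi (θ.u j) (A.e j x) a := by
  intro j x a hj
  rw [θ.cmp (A.ch x) j x (Atl.ch_in x).1 hj]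
  exact h _ x _ (Atl.in_ch x le_rfl)

theorem Atl.le_of_ch (θ : A.Pot) (F : A.Rhs) (r : X → ℝ)
    (h : ∀ j x V, A.In j 1 x → F.F j (A.e j x) (r x) V ≤ trL (θ.u j) (A.e j x) V) :
    ∀ j x V, x ∈ (A.e j).source → F.F j (A.e j x) (r x) V ≤ trL (θ.u j) (A.e j x) V := by
  intro j x V hj
  rw [θ.trL_chg (Atl.ch_in x).1 hj, F.cmp (A.ch x) j x _ V (Atl.ch_in x).1 hj]
  exact h _ x _ (Atl.in_ch x le_rfl)

theorem Atl.sup_of_ch (θ : A.Pot) (F : A.Rhs) {φ : X → ℝ} (hφ : A.Sm φ)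
    (h : ∀ x, ∃ j V, x ∈ (A.e j).source ∧
      trL (fun y => θ.u j y + A.loc φ j y) (A.e j x) V < F.F j (A.e j x) (φ x) V) :
    Atl.Sup θ.u F.F φ := by
  refine ⟨hφ, fun k x hk => ?_⟩
  obtain ⟨j, V, hj, h1⟩ := h x
  have h2 := (θ.addSm hφ).trL_chg hj hk (A.tr k j x * V)
  have h3 := F.cmp j k x (φ x) (A.tr k j x * V) hj hk
  rw [← mul_assoc, Atl.tr_mul hj hk, one_mul] at h2 h3
  exact ⟨A.tr k j x * V, h2.trans_lt (h1.trans_eq h3.symm)⟩

theorem Atl.sub_of_ch (θ ρ : A.Pot) (F : A.Rhs) {t : ℝ} {ψ : X → ℝ} (hψ : A.Sm ψ)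
    (h : ∀ x, ∃ j, x ∈ (A.e j).source ∧ ∀ V, F.F j (A.e j x) (ψ x) V ≤
      trL (fun y => θ.u j y + A.loc ψ j y) (A.e j x) V + t * trL (ρ.u j) (A.e j x) V) :
    Atl.Sub θ.u F.F ρ t ψ := by
  refine ⟨hψ, fun k x V hk => ?_⟩
  obtain ⟨j, hj, h1⟩ := h x
  have h2 : trL (fun y => θ.u k y + A.loc ψ k y) (A.e k x) V =
      trL (fun y => θ.u j y + A.loc ψ j y) (A.e j x) (A.tr j k x * V) :=
    (θ.addSm hψ).trL_chg hj hk V
  rw [h2, ρ.trL_chg hj hk V, F.cmp j k x (ψ x) V hj hk]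
  exact h1 _

end Vale.Agent.P272
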