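import Vale.Agent.P272.F.Kit.Bd

/-! P272 F/Kit/Rhs (task, owner h70). Helper names start with `krhs_`. The two right sides.
Plan. `maRhs`: `cmp` from `pv_loc`, `v.cmp`, `maR_chg`, `tr_unit`; `mono` from `maR_mono`; `uc`: with `s = r + w + l`, `|s| ≤ R + 2 C` (`fam_bound`), `s' ≤ s + κ` (`fam_uc`), `maR s' V ≤ exp (κ / n) maR s V` (`maR_add`, `maR_mono`), `maR s V ≤ exp (R + 2 C) hs V` (`maR_le`), `exp (κ / n) - 1` small (continuity of `exp` at `0`); `lo` with `C = 0`.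
`linRhs`: `trL_chg`, `trL_nonneg` (`A.tgt`), `fam_bound` with `trL_up`, `fam_uc`. -/

open Metric Set Filter Topology Complex
open scoped ContDiff

noncomputable section

namespace Vale.Agent.P272

variable {n : ℕ} {X : Type} [TopologicalSpace X] {A : Atl n X}

theorem krhs_ma_uc (hn : 1 ≤ n) (v : A.LV) {w : X → ℝ} (hw : A.Sm w) (R η : ℝ) (hη : 0 < η) :
    ∃ δ : ℝ, 0 < δ ∧ ∀ j y y' r r' V, ‖y‖ ≤ 4 → ‖y'‖ ≤ 4 → |r| ≤ R → |r'| ≤ R → ‖y - y'‖ ≤ δ →
      |r - r'| ≤ δ → Atl.maF v w j y' r' V ≤ Atl.maF v w j y r V + η * hs V := by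
  obtain ⟨C₁, -, h1⟩ := Atl.fam_bound (u := A.loc w) hw
  obtain ⟨C₂, -, h2⟩ := Atl.fam_bound v.sm
  have hn0 : (0 : ℝ) < n := by exact_mod_cast hn
  set K := Real.exp ((R + C₁ + C₂) / n) with hK
  have hK0 : 0 < K := Real.exp_pos _
  have hq : 0 < η / K := div_pos hη hK0
  have hl : 0 < Real.log (1 + η / K) := Real.log_pos (by linarith)
  set κ := n * Real.log (1 + η / K) / 3 with hκ
  have hκ0 : 0 < κ := by positivity
  obtain ⟨δ₁, d1, h3⟩ := Atl.fam_uc (u := A.loc w) hw hκ0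
  obtain ⟨δ₂, d2, h4⟩ := Atl.fam_uc v.sm hκ0
  refine ⟨min κ (min δ₁ δ₂), by positivity, fun j y y' r r' V hy hy' hr _ hd hd' => ?_⟩
  have a1 := abs_le.1 (h3 j y y' hy hy' (hd.trans ((min_le_right _ _).trans (min_le_left _ _)))).1
  have a2 := abs_le.1 (h4 j y y' hy hy' (hd.trans ((min_le_right _ _).trans (min_le_right _ _)))).1
  have a3 := abs_le.1 (hd'.trans (min_le_left _ _))
  have a4 := abs_le.1 (h1 j y hy).1
  have a5 := abs_le.1 (h2 j y hy).1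
  have a6 := abs_le.1 hr
  unfold Atl.maF
  set s := r + A.loc w j y + v.l j y with hs'
  have b1 : maR (r' + A.loc w j y' + v.l j y') V ≤ maR (3 * κ + s) V :=
    maR_mono (by linarith [a1.1, a2.1, a3.1]) V
  have b2 : Real.exp (3 * κ / n) = 1 + η / K := by
    rw [show 3 * κ / n = Real.log (1 + η / K) by rw [hκ]; field_simp]
    exact Real.exp_log (by linarith)
  rw [maR_add (3 * κ) s, b2] at b1
  have b3 : maR s V ≤ K * hs V := by
    refine (maR_le hn s V).trans (mul_le_mul_of_nonneg_right ?_ (pv_hs_nonneg V))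
    exact Real.exp_le_exp.2 (div_le_div_of_nonneg_right (by linarith [a4.2, a5.2, a6.2]) hn0.le)
  have b4 : η / K * maR s V ≤ η * hs V := by
    refine (mul_le_mul_of_nonneg_left b3 hq.le).trans (le_of_eq ?_)
    field_simp
  linarith

theorem krhs_tr {ρ : A.Pot} (hρ : ρ.Pos) : ∃ C : ℝ, 1 ≤ C ∧ ∀ j y V, ‖y‖ ≤ 4 →
    0 ≤ trL (ρ.u j) y V ∧ trL (ρ.u j) y V ≤ C * hs V := by
  obtain ⟨C, hC, h⟩ := Atl.fam_bound ρ.sm
  exact ⟨C, hC, fun j y V hy => ⟨hρ.trL_nonneg (A.tgt j (mem_closedBall_zero_iff.2 hy)) V,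
    trL_up (fun a => (abs_le.1 ((h j y hy).2.2.2 a)).2) V⟩⟩

theorem krhs_abs (ε : ℝ) {β r R : ℝ} (hβ : 0 ≤ β) (hr : |r| ≤ R) : |ε + β * r| ≤ |ε| + β * |R| := by
  refine (abs_add_le _ _).trans (add_le_add_right ?_ _)
  rw [abs_mul, abs_of_nonneg hβ]
  exact mul_le_mul_of_nonneg_left (hr.trans (le_abs_self R)) hβ

theorem krhs_lin_uc {ρ : A.Pot} (hρ : ρ.Pos) (ε : ℝ) {β : ℝ} (hβ : 0 ≤ β) (R η : ℝ) (hη : 0 < η) :
    ∃ δ : ℝ, 0 < δ ∧ ∀ j y y' r r' V, ‖y‖ ≤ 4 → ‖y'‖ ≤ 4 → |r| ≤ R → |r'| ≤ R → ‖y - y'‖ ≤ δ →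
      |r - r'| ≤ δ → (ε + β * r') * trL (ρ.u j) y' V ≤
        (ε + β * r) * trL (ρ.u j) y V + η * hs V := by
  obtain ⟨C, hC, h1⟩ := krhs_tr hρ
  set K := |ε| + β * |R| with hK
  have hK0 : 0 ≤ K := by positivity
  have hC0 : 0 ≤ β * C := by positivity
  obtain ⟨δ₁, d1, h2⟩ := Atl.fam_uc ρ.sm (η := η / (2 * (K + 1))) (by positivity)
  refine ⟨min δ₁ (η / (2 * (β * C + 1))), by positivity,
    fun j y y' r r' V hy hy' _ hr' hd hd' => ?_⟩
  have a1 := (h2 j y' y hy' hy (by rw [norm_sub_rev]; exact hd.trans (min_le_left _ _))).2.2 V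
  have a2 := abs_le.1 (hd'.trans (min_le_right _ _))
  obtain ⟨a3, a4⟩ := h1 j y V hy
  have a5 := krhs_abs ε hβ hr'
  have h0 := pv_hs_nonneg V
  have b1 : (ε + β * r') * (trL (ρ.u j) y' V - trL (ρ.u j) y V) ≤ η / 2 * hs V := by
    refine (le_abs_self _).trans ?_
    rw [abs_mul]
    refine (mul_le_mul a5 a1 (abs_nonneg _) hK0).trans ?_
    rw [← mul_assoc]
    refine mul_le_mul_of_nonneg_right ?_ h0
    rw [← mul_div_assoc, div_le_div_iff₀ (by positivity) (by norm_num)]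
    nlinarith
  have b2 : β * (r' - r) * trL (ρ.u j) y V ≤ η / 2 * hs V := by
    have c1 : β * (r' - r) ≤ β * (η / (2 * (β * C + 1))) :=
      mul_le_mul_of_nonneg_left (by linarith [a2.1]) hβ
    refine (mul_le_mul c1 a4 a3 (by positivity)).trans ?_
    rw [← mul_assoc]
    refine mul_le_mul_of_nonneg_right ?_ h0
    rw [← mul_div_assoc, div_mul_eq_mul_div, div_le_div_iff₀ (by positivity) (by norm_num)]
    nlinarith
  nlinarith

/-- The Monge-Ampere right side. -/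
def Atl.maRhs (hn : 1 ≤ n) (v : A.LV) {w : X → ℝ} (hw : A.Sm w) : A.Rhs where
  F := Atl.maF v w
  cmp := fun j k x r V hj hk => by
    unfold Atl.maF
    rw [pv_loc w hj, pv_loc w hk, v.cmp j k x hj hk, ← add_assoc, maR_chg _ (Atl.tr_unit hj hk)]
  mono := fun j y V _ r r' h => maR_mono (by linarith) V
  uc := krhs_ma_uc hn v hw
  lo := fun _ => ⟨0, fun j y r V _ _ => by simpa [Atl.maF] using maR_nonneg _ V⟩

/-- The linear right side. -/
def Atl.linRhs {ρ : A.Pot} (hρ : ρ.Pos) (ε : ℝ) {β : ℝ} (hβ : 0 ≤ β) : A.Rhs where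
  F j y r V := (ε + β * r) * trL (ρ.u j) y V
  cmp := fun j k x r V hj hk => by rw [ρ.trL_chg hj hk]
  mono := fun j y V hy r r' h => mul_le_mul_of_nonneg_right
    (add_le_add_right (mul_le_mul_of_nonneg_left h hβ) _)
    (hρ.trL_nonneg (A.tgt j (mem_closedBall_zero_iff.2 hy)) V)
  uc := krhs_lin_uc hρ ε hβ
  lo := fun R => by
    obtain ⟨C, hC, h1⟩ := krhs_tr hρ
    refine ⟨(|ε| + β * |R|) * C, fun j y r V hy hr => ?_⟩
    obtain ⟨a3, a4⟩ := h1 j y V hy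
    have a5 := (abs_le.1 (krhs_abs ε hβ hr)).1
    have a6 : (|ε| + β * |R|) * trL (ρ.u j) y V ≤ (|ε| + β * |R|) * (C * hs V) :=
      mul_le_mul_of_nonneg_left a4 (by positivity)
    have a7 := mul_le_mul_of_nonneg_right a5 a3
    linarith

end Vale.Agent.P272
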